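import Vale.Agent.P145W85.F.LemE

/-!
Identification of the limit covariance and of the limit moments, with exceptional points.
-/

set_option autoImplicit false

namespace Vale.Agent.P145W85.P153.R2.FLDI

open Filter Topology Set MeasureTheory
open Vale.Agent.P145W85.P145.PT

variable {E : Finset (ℝ × ℝ)}

theorem CovE.addl {D : Set (ℝ × ℝ)} {κ : ℝ} {M : (ℝ × ℝ → ℝ) → (ℝ × ℝ → ℝ) → ℝ} (h : CovE D E κ M)
    {f g k : ℝ × ℝ → ℝ} (hf : TestOn D f) (hg : TestOn D g) (hk : TestOn D k) :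
    M (fun z => f z + g z) k = M f k + M g k := by
  obtain ⟨C, hC⟩ := h.bd k hk
  exact hC.add f g hf hg

theorem CovE.smull {D : Set (ℝ × ℝ)} {κ : ℝ} {M : (ℝ × ℝ → ℝ) → (ℝ × ℝ → ℝ) → ℝ} (h : CovE D E κ M)
    {f k : ℝ × ℝ → ℝ} (c : ℝ) (hf : TestOn D f) (hk : TestOn D k) :
    M (fun z => c * f z) k = c * M f k := by
  obtain ⟨C, hC⟩ := h.bd k hk
  exact hC.smul c f hf

theorem CovE.quad {D : Set (ℝ × ℝ)} {κ : ℝ} {M : (ℝ × ℝ → ℝ) → (ℝ × ℝ → ℝ) → ℝ} (h : CovE D E κ M)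
    {f g : ℝ × ℝ → ℝ} (hf : TestOn D f) (hg : TestOn D g) (c : ℝ) :
    M (fun z => f z + c * g z) (fun z => f z + c * g z)
      = M f f + 2 * c * M f g + c ^ 2 * M g g := by
  have hcg := hg.smul c
  have hs := hf.add hcg
  have e1 : M (fun z => f z + c * g z) (fun z => f z + c * g z)
      = M f (fun z => f z + c * g z) + M (fun z => c * g z) (fun z => f z + c * g z) :=
    h.addl hf hcg hs
  have e2 : M (fun z => c * g z) (fun z => f z + c * g z)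
      = c * M g (fun z => f z + c * g z) := h.smull c hg hs
  have e3 : M f (fun z => f z + c * g z) = M f f + c * M f g := by
    rw [h.symm f _ hf hs]
    have : M (fun z => f z + c * g z) f = M f f + M (fun z => c * g z) f := h.addl hf hcg hf
    rw [this, h.smull c hg hf, h.symm g f hg hf]
  have e4 : M g (fun z => f z + c * g z) = M f g + c * M g g := by
    rw [h.symm g _ hg hs]
    have : M (fun z => f z + c * g z) g = M f g + M (fun z => c * g z) g := h.addl hf hcg hg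
    rw [this, h.smull c hg hg]
  rw [e1, e2, e3, e4]; ring

/-- `M(φ + Δψ, φ + Δψ) = M(φ, φ) - κ (2 ∫ φ ψ - ∫ |∇ψ|²)`. -/
theorem CovE.lapquad {D : Set (ℝ × ℝ)} {κ : ℝ} {M : (ℝ × ℝ → ℝ) → (ℝ × ℝ → ℝ) → ℝ}
    (h : CovE D E κ M) {φ ψ : ℝ × ℝ → ℝ} (hφ : TestOn D φ) (hψ : TestOn D ψ) :
    M (fun z => φ z + 1 * lap ψ z) (fun z => φ z + 1 * lap ψ z)
      = M φ φ - κ * ((2 * ∫ z, φ z * ψ z) - energy ψ) := by
  rw [h.quad hφ hψ.lap 1, h.symm φ _ hφ hψ.lap, h.sd ψ φ hψ hφ, h.sd ψ _ hψ hψ.lap,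
    energy_eq hψ]
  have : ∫ z, ψ z * φ z = ∫ z, φ z * ψ z := by congr 1; funext z; ring
  rw [this]; ring

/-- The lower bound holds for free. -/
theorem CovE.lower {D : Set (ℝ × ℝ)} {κ : ℝ} (hκ : 0 < κ)
    {M : (ℝ × ℝ → ℝ) → (ℝ × ℝ → ℝ) → ℝ} (h : CovE D E κ M) {φ : ℝ × ℝ → ℝ} (hφ : TestOn D φ) :
    κ * V D φ ≤ M φ φ := by
  have : V D φ ≤ M φ φ / κ := V_le fun ψ hψ => by
    rw [le_div_iff₀ hκ]
    have h1 := h.pos _ (hφ.add (hψ.lap.smul 1))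
    rw [h.lapquad hφ hψ] at h1
    linarith
  rwa [le_div_iff₀ hκ, mul_comm] at this

/-- A nonnegative test function is close to a Laplacian in the seminorm of `M`. -/
theorem CovE.approx {D : Set (ℝ × ℝ)} (hD : IsOpen D) (hb : Bornology.IsBounded D)
    (hE0 : ∀ e ∈ E, e ∉ D) {κ : ℝ}
    (hκ : 0 < κ) {M : (ℝ × ℝ → ℝ) → (ℝ × ℝ → ℝ) → ℝ} (h : CovE D E κ M) {φ : ℝ × ℝ → ℝ}
    (hφ : TestOn D φ) (hφ0 : ∀ z, 0 ≤ φ z) {η : ℝ} (hη : 0 < η) : ∃ ψ, TestOn D ψ ∧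
      M (fun z => φ z + 1 * lap ψ z) (fun z => φ z + 1 * lap ψ z) ≤ η := by
  obtain ⟨C, hC⟩ := h.bd φ hφ
  have hT : L2Fn D (fun f => κ⁻¹ * M f φ) (κ⁻¹ * C) :=
    { add := fun f g hf hg => by rw [h.addl hf hg hφ]; ring
      smul := fun c f hf => by rw [h.smull c hf hφ]; ring
      bd := fun f hf => by
        rw [abs_mul, abs_of_pos (inv_pos.2 hκ), mul_assoc]
        exact mul_le_mul_of_nonneg_left (hC.bd f hf) (inv_pos.2 hκ).le }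
  obtain ⟨ψ, hψ, hE, hTψ⟩ := lemBE hD hb hE0 hT hφ (fun ψ hψ => by
      rw [h.sd ψ φ hψ hφ]; field_simp)
    (fun ε ρ hε hρ => by
      obtain ⟨r, hr, hd⟩ := (h.dec φ hφ).dec (κ * ε) ρ (by positivity) hρ
      refine ⟨r, hr, fun x hx hxr hxe => ?_⟩
      have h1 := (le_abs_self _).trans (hd x hx hxr hxe)
      rw [inv_mul_le_iff₀ hκ]
      exact h1)
    (by
      obtain ⟨K, r, hr, hd⟩ := (h.dec φ hφ).bd
      refine ⟨κ⁻¹ * K, r, hr, fun x hx hxr => ?_⟩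
      exact mul_le_mul_of_nonneg_left ((le_abs_self _).trans (hd x hx hxr)) (inv_pos.2 hκ).le)
    hφ hφ0 (show 0 < η / (2 * κ) by positivity)
  refine ⟨ψ, hψ, ?_⟩
  rw [h.lapquad hφ hψ]
  rw [inv_mul_le_iff₀ hκ] at hTψ
  have e : κ * (η / (2 * κ)) = η / 2 := by field_simp
  have h2 := mul_le_mul_of_nonneg_left hE hκ.le
  rw [mul_add, e] at h2 hTψ
  linarith

/-- Identification of the two-point function with the Green function of `D`. -/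
theorem CovE.eq_V {D : Set (ℝ × ℝ)} (hD : IsOpen D) (hb : Bornology.IsBounded D)
    (hE0 : ∀ e ∈ E, e ∉ D) {κ : ℝ}
    (hκ : 0 < κ) {M : (ℝ × ℝ → ℝ) → (ℝ × ℝ → ℝ) → ℝ} (h : CovE D E κ M) {φ : ℝ × ℝ → ℝ}
    (hφ : TestOn D φ) : M φ φ = κ * V D φ := by
  refine le_antisymm ?_ (h.lower hκ hφ)
  refine le_of_forall_pos_le_add fun η hη => ?_
  obtain ⟨p, m, hp, hm, hp0, hm0, hpm⟩ := exists_decomp hD hb hφ
  obtain ⟨ψ1, hψ1, h1⟩ := h.approx hD hb hE0 hκ hp hp0 (show 0 < η / 4 by linarith)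
  obtain ⟨ψ2, hψ2, h2⟩ := h.approx hD hb hE0 hκ hm hm0 (show 0 < η / 4 by linarith)
  set a : ℝ × ℝ → ℝ := fun z => p z + 1 * lap ψ1 z with ha
  set b : ℝ × ℝ → ℝ := fun z => m z + 1 * lap ψ2 z with hb'
  have hat : TestOn D a := hp.add (hψ1.lap.smul 1)
  have hbt : TestOn D b := hm.add (hψ2.lap.smul 1)
  set ψ : ℝ × ℝ → ℝ := fun z => ψ1 z + (-1) * ψ2 z with hψd
  have hψ : TestOn D ψ := hψ1.add (hψ2.smul (-1))
  have e1 : (fun z => φ z + 1 * lap ψ z) = fun z => a z + (-1) * b z := by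
    funext z
    rw [hψd, lap_add hψ1.sm (contDiff_const.mul hψ2.sm), lap_smul hψ2.sm, hpm z, ha, hb']
    ring
  have e2 := h.lapquad hφ hψ
  rw [e1, h.quad hat hbt (-1)] at e2
  -- M a b ≥ -(M a a + M b b)/2
  have e3 := h.pos _ (hat.add (hbt.smul 1))
  rw [h.quad hat hbt 1] at e3
  have e4 := mul_le_mul_of_nonneg_left (le_V hb hφ hψ) hκ.le
  nlinarith

/-- The limit moments are Gaussian. `A n θ` is the limit of `E[H(θ) H(φ)^n]`, `a n` the limit of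
`E[H(φ)^n]`. -/
theorem moments_gaussE {D : Set (ℝ × ℝ)} (hD : IsOpen D) (hb : Bornology.IsBounded D)
    (hE0 : ∀ e ∈ E, e ∉ D) {κ : ℝ}
    (hκ : 0 < κ) {φ : ℝ × ℝ → ℝ} (hφ : TestOn D φ) {M : (ℝ × ℝ → ℝ) → (ℝ × ℝ → ℝ) → ℝ}
    (hM : CovE D E κ M) (A : ℕ → (ℝ × ℝ → ℝ) → ℝ) (a : ℕ → ℝ)
    (hA1 : A 1 φ = M φ φ) (ha0 : a 0 = 1) (ha : ∀ n, a (n + 1) = A n φ)
    (hbd : ∀ n, ∃ C, L2Fn D (A n) C)
    (hsd0 : ∀ ψ, TestOn D ψ → A 0 (lap ψ) = 0)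
    (hsd : ∀ n ψ, TestOn D ψ →
      A (n + 1) (lap ψ) = - (κ * (n + 1) * (∫ z, ψ z * φ z) * a n))
    (hdec : ∀ n, DecE D E (A n)) :
    ∀ n, a n = gm (κ * V D φ) n := by
  have h1 : a 1 = 0 := by
    obtain ⟨C, hC⟩ := hbd 0
    rw [ha 0]
    exact uniqE hD hb hE0 hC hsd0 (hdec 0) hφ
  have h2 : ∀ n, a (n + 2) = (n + 1) * (κ * V D φ) * a n := by
    intro n
    obtain ⟨C, hC⟩ := hbd (n + 1)
    obtain ⟨C1, hC1⟩ := hbd 1
    have hT := hC.comb hC1 (-((n + 1) * a n))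
    have h := uniqE hD hb hE0 hT (fun ψ hψ => by
      have e1 := hsd n ψ hψ
      have e2 := hsd 0 ψ hψ
      rw [zero_add] at e2
      rw [e1, e2, ha0]; push_cast; ring) ((hdec (n + 1)).comb (hdec 1) _) hφ
    rw [hA1, hM.eq_V hD hb hE0 hκ hφ] at h
    rw [ha (n + 1)]
    linarith
  have h3 : ∀ n, a n = gm (κ * V D φ) n ∧ a (n + 1) = gm (κ * V D φ) (n + 1) := by
    intro n
    induction n with
    | zero => exact ⟨ha0, h1⟩
    | succ n ih =>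
      refine ⟨ih.2, ?_⟩
      rw [h2 n, ih.1]; rfl
  exact fun n => (h3 n).1

end Vale.Agent.P145W85.P153.R2.FLDI
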