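import Vale.Agent.P145W85.F.CovE

/-!
Weyl's lemma: a functional which is bounded in `L²` and weakly harmonic is given by a smooth
harmonic function.
-/

set_option autoImplicit false

namespace Vale.Agent.P145W85.P153.R2.FLDI

open Filter Topology Set MeasureTheory
open Vale.Agent.P145W85.P145.PT

theorem moll_pair {u : ℝ × ℝ → ℝ} (hu : Integrable u) {D : Set (ℝ × ℝ)} {θ : ℝ × ℝ → ℝ}
    (hθ : TestOn D θ) {η : ℝ} (hη : 0 < η) : ∃ s0 : ℝ, 0 < s0 ∧ ∀ s : ℝ, 0 < s → s < s0 →
      |(∫ x, θ x * US u s x) - ∫ z, u z * θ z| ≤ η := by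
  set N := ∫ z, |u z| with hN
  have hN0 : 0 ≤ N := integral_nonneg fun z => abs_nonneg _
  obtain ⟨s2, hs2, hm2⟩ := moll_unif hθ.cont hθ.cs (η := η / (N + 1)) (by positivity)
  refine ⟨s2, hs2, fun s hs0 hss2 => ?_⟩
  have g2 : ∫ x, θ x * US u s x = ∫ z, u z * (∫ x, θ x * bump s z x) := by
    have hi : Integrable (fun p : (ℝ × ℝ) × (ℝ × ℝ) => θ p.1 * (u p.2 * bump s p.1 p.2))
        (volume.prod volume) := by
      obtain ⟨M, hM⟩ := (rs_cs hs0).exists_bound_of_continuous (rs_smooth s).continuous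
      have h1 : Integrable (fun p : (ℝ × ℝ) × (ℝ × ℝ) => (θ p.1 * u p.2) * bump s p.1 p.2)
          (volume.prod volume) := by
        refine (hθ.int.mul_prod hu).mul_bdd (c := M) ?_ (ae_of_all _ fun p => hM _)
        refine Continuous.aestronglyMeasurable ?_
        exact (rs_smooth s).continuous.comp (continuous_snd.sub continuous_fst)
      refine h1.congr (ae_of_all _ fun p => ?_)
      simp only; ring
    calc ∫ x, θ x * US u s x = ∫ x, ∫ z, θ x * (u z * bump s x z) := by
          congr 1; funext x; rw [integral_const_mul, US_eq]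
      _ = ∫ z, ∫ x, θ x * (u z * bump s x z) := integral_integral_swap hi
      _ = _ := by
          congr 1; funext z
          rw [← integral_const_mul]
          congr 1; funext x
          rw [bump_symm s z x]; ring
  obtain ⟨Mθ, hMθ⟩ := hθ.cs.exists_bound_of_continuous hθ.cont
  have hcont : Continuous (fun z => ∫ x, θ x * bump s z x) := by
    have : (fun z => ∫ x, θ x * bump s z x) = US θ s := by funext z; rw [US_eq]
    rw [this]; exact (US_smooth hθ.int hs0).continuous
  have hbd : ∀ z, |∫ x, θ x * bump s z x| ≤ Mθ + η / (N + 1) := by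
    intro z
    have h1 := abs_le.1 (hm2 s hs0 hss2 z)
    have h2 := abs_le.1 (hMθ z)
    rw [abs_le]; constructor <;> linarith [h1.1, h1.2, h2.1, h2.2]
  rw [g2]
  have i1 : Integrable (fun z => u z * ∫ x, θ x * bump s z x) :=
    hu.mul_bdd hcont.aestronglyMeasurable (ae_of_all _ hbd)
  have i2 : Integrable (fun z => u z * θ z) :=
    hu.mul_bdd hθ.cont.aestronglyMeasurable (ae_of_all _ hMθ)
  rw [← integral_sub i1 i2]
  calc |∫ z, (u z * (∫ x, θ x * bump s z x) - u z * θ z)|
      ≤ ∫ z, |u z * (∫ x, θ x * bump s z x) - u z * θ z| := abs_integral_le_integral_abs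
    _ ≤ ∫ z, |u z| * (η / (N + 1)) := by
        refine integral_mono_of_nonneg (ae_of_all _ fun z => abs_nonneg _)
          (hu.abs.mul_const _) (ae_of_all _ fun z => ?_)
        simp only
        rw [← mul_sub, abs_mul]
        exact mul_le_mul_of_nonneg_left (hm2 s hs0 hss2 z) (abs_nonneg _)
    _ = N * (η / (N + 1)) := by rw [integral_mul_const]
    _ ≤ η := by
        have : N * (η / (N + 1)) = η * (N / (N + 1)) := by field_simp
        rw [this]
        have : N / (N + 1) ≤ 1 := by rw [div_le_one (by positivity)]; linarith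
        nlinarith

/-- The values of a weakly harmonic functional. -/
noncomputable def uT (D : Set (ℝ × ℝ)) (T : (ℝ × ℝ → ℝ) → ℝ) (x : ℝ × ℝ) : ℝ :=
  T (bump (dd D x / 2) x)

theorem uT_spec {D : Set (ℝ × ℝ)} (hD : IsOpen D) (hb : Bornology.IsBounded D)
    {T : (ℝ × ℝ → ℝ) → ℝ} {C : ℝ} (hT : L2Fn D T C)
    (heq : ∀ ψ, TestOn D ψ → T (lap ψ) = 0) :
    Harm D (uT D T) ∧ ∀ f, TestOn D f → T f = ∫ z, uT D T z * f z := by
  obtain ⟨u, hu, huD, hTu⟩ := rep hD hb hT
  have heq' : ∀ ψ, TestOn D ψ → ∫ z, u z * lap ψ z = - ∫ z, ψ z * (fun _ => (0 : ℝ)) z := by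
    intro ψ hψ
    rw [← hTu _ hψ.lap, heq ψ hψ]
    simp
  have hval : ∀ x ∈ D, ∀ s : ℝ, 0 < s → s ≤ dd D x / 2 → uT D T x = US u s x := by
    intro x hx s hs hsd
    have hx0 : 0 < dd D x := (dd_pos hD hb).2 hx
    have hB : Metric.closedBall x (dd D x / 2) ⊆ D := ball_sub (by linarith)
    unfold uT
    rw [hTu _ (bump_test (by linarith) hB), US_eq]
    exact bump_const hu heq' hs hsd hB fun z _ => rfl
  have hloc : ∀ x ∈ D, ∀ y, dist x y < dd D x / 4 → y ∈ D ∧ dd D x / 8 ≤ dd D y / 2 := by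
    intro x hx y hy
    have hx0 : 0 < dd D x := (dd_pos hD hb).2 hx
    have h1 := dd_le_add D x y
    exact ⟨(dd_pos hD hb).1 (by linarith), by linarith⟩
  have hsm : ∀ x ∈ D, ∀ y ∈ Metric.ball x (dd D x / 4), uT D T y = US u (dd D x / 8) y := by
    intro x hx y hy
    have hx0 : 0 < dd D x := (dd_pos hD hb).2 hx
    have h1 := hloc x hx y (by rw [dist_comm]; exact hy)
    exact hval y h1.1 _ (by linarith) h1.2
  refine ⟨⟨fun x hx => ?_, fun x hx => ?_⟩, fun f hf => ?_⟩
  · have hx0 : 0 < dd D x := (dd_pos hD hb).2 hx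
    refine ContDiffAt.contDiffWithinAt ?_
    refine (US_smooth hu (s := dd D x / 8) (by linarith)).contDiffAt.congr_of_eventuallyEq ?_
    filter_upwards [Metric.ball_mem_nhds x (show 0 < dd D x / 4 by linarith)] with y hy
    exact hsm x hx y hy
  · have hx0 : 0 < dd D x := (dd_pos hD hb).2 hx
    rw [lap_congr Metric.isOpen_ball (hsm x hx) (Metric.mem_ball_self (by linarith)),
      US_lap hu (by linarith), heq' _ (bump_test (by linarith) (ball_sub (by linarith)))]
    simp
  · obtain ⟨r, hr, hrK⟩ := exists_low_compact hD hb hf.2.1 hf.2.2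
    rw [hTu f hf]
    refine eq_of_abs_sub_le_all fun η hη => ?_
    obtain ⟨s0, hs0, h⟩ := moll_pair hu hf hη
    have hs1 : 0 < min (s0 / 2) (r / 2) := lt_min (by linarith) (by linarith)
    have h1 := h (min (s0 / 2) (r / 2)) hs1 (lt_of_le_of_lt (min_le_left _ _) (by linarith))
    have h2 : ∫ z, uT D T z * f z = ∫ x, f x * US u (min (s0 / 2) (r / 2)) x := by
      congr 1
      funext z
      by_cases hz : z ∈ tsupport f
      · rw [hval z (hf.2.2 hz) _ hs1 ((min_le_right _ _).trans (by linarith [hrK z hz]))]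
        ring
      · have : f z = 0 := by
          by_contra h
          exact hz (subset_tsupport _ h)
        rw [this, mul_zero, zero_mul]
    rw [h2, abs_sub_comm]
    exact h1

end Vale.Agent.P145W85.P153.R2.FLDI
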