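import Vale.Agent.P145W85.F.Uniq

/-!
The maximum principle with finitely many exceptional points, and the mean value property.
-/

set_option autoImplicit false

namespace Vale.Agent.P145W85.P153.R2.FLDI

open Filter Topology Set MeasureTheory
open Vale.Agent.P145W85.P145.PT Vale.Agent.P145W85.P153 Vale.Agent.P145W85.P153.F.Top

/-- The mean value property over Whitney balls. -/
theorem Harm.mv {D : Set (ℝ × ℝ)} (hD : IsOpen D) (hb : Bornology.IsBounded D)
    {u : ℝ × ℝ → ℝ} (hu : Harm D u) {K : ℝ} (hK : ∀ z ∈ D, |u z| ≤ K) {x : ℝ × ℝ} (hx : x ∈ D) :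
    ∫ z, u z * bump (dd D x / 2) x z = u x := by
  obtain ⟨C, hC⟩ := harm_l2fn hD hb hu.smooth hK
  obtain ⟨hH, hv⟩ := uT_spec hD hb hC fun ψ hψ => hu.weak hD hb hψ
  have h0 := zero_of_weak hD hb (u := fun z => u z - uT D (fun f => ∫ z, u z * f z) z)
    (hu.smooth.sub hH.smooth) (fun f hf => by
      have e : ∀ z, (u z - uT D (fun f => ∫ z, u z * f z) z) * f z =
        u z * f z - uT D (fun f => ∫ z, u z * f z) z * f z := fun z => by ring
      simp_rw [e]
      rw [integral_sub (TestOn.locInt hD hb hu.smooth hf) (TestOn.locInt hD hb hH.smooth hf),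
        ← hv f hf, sub_self]) x hx
  have h1 : u x = uT D (fun f => ∫ z, u z * f z) x := by linarith
  rw [h1]
  rfl

/-- The maximum principle. -/
theorem max_prin {D : Set (ℝ × ℝ)} (hD : IsOpen D) (hb : Bornology.IsBounded D)
    {E : Finset (ℝ × ℝ)} (hE : ∀ e ∈ E, e ∉ D) {u : ℝ × ℝ → ℝ} (hu : Harm D u) {K : ℝ}
    (hK : ∀ z ∈ D, |u z| ≤ K)
    (hbv : ∀ z ∈ frontier D, z ∉ E → ∀ ε : ℝ, 0 < ε → ∃ r : ℝ, 0 < r ∧ ∀ x ∈ D, dist x z < r →
      u x ≤ ε) : ∀ x ∈ D, u x ≤ 0 := by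
  intro x hx
  obtain ⟨C, hC⟩ := harm_l2fn hD hb hu.smooth hK
  have hK0 : 0 ≤ K := (abs_nonneg _).trans (hK x hx)
  have hdec : DecE D E fun f => max (∫ z, u z * f z) 0 := by
    refine decE_of hD hb (fun z hz hzE ε hε => ?_) ⟨K, 1, one_pos, fun y hy _ => ?_⟩
    · obtain ⟨r, hr, h⟩ := hbv z hz hzE ε hε
      refine ⟨r, hr, fun y hy hyz => ?_⟩
      rw [hu.mv hD hb hK hy, abs_of_nonneg (le_max_right _ _)]
      exact max_le (h y hy hyz) hε.le
    · rw [hu.mv hD hb hK hy, abs_of_nonneg (le_max_right _ _)]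
      exact max_le ((le_abs_self _).trans (hK y hy)) hK0
  have h1 := le_zero_ofE hD hb hE hC (fun ψ hψ => hu.weak hD hb hψ)
    (fun ε ρ hε hρ => by
      obtain ⟨r, hr, h⟩ := hdec.dec ε ρ hε hρ
      exact ⟨r, hr, fun y hy hyr hye => (le_max_left _ _).trans ((le_abs_self _).trans
        (h y hy hyr hye))⟩)
    (by
      obtain ⟨K', r, hr, h⟩ := hdec.bd
      exact ⟨K', r, hr, fun y hy hyr => (le_max_left _ _).trans ((le_abs_self _).trans
        (h y hy hyr))⟩)
    (bump_test' hD hb hx) (bump_nonneg _ _)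
  rwa [hu.mv hD hb hK hx] at h1

end Vale.Agent.P145W85.P153.R2.FLDI
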